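import Vale.Agent.P247F.Defs
import Vale.Agent.P247.SCY.MFD2
import Vale.Agent.P247.H574.Sta2
import Vale.Agent.P290Z.Lat.Spec

/-!
# P247, general four-manifolds: interface file

Objects passed between the blocks and the exact statements of the blocks.  The paper proof is in
`notes/P247/plan.md`.  Each `XX_statement : Prop` is one block; prove it taking the statements of
the blocks it depends on as hypotheses.
-/

open scoped Manifold ContDiff Topology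
open Set MeasureTheory Filter Metric

noncomputable section

namespace Vale.Agent.P247X

open Vale.Agent.P247.SCY
open Vale.Agent.P247.SCY.HS
open Vale.Agent.P247.H74 (R4 Data e)
open Vale.Agent.P247.H574 (F2 tr Box PD IsPush IntM CF Good)
open Vale.Agent.P290.H726 (bil)
open Vale.Agent.P290Z.Lat (IsK3L cs)

/-- closed connected smooth four-manifolds -/
class Cl4 (X : Type) extends TopologicalSpace X, ChartedSpace HS.E4 X, MeasurableSpace X where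
  mfd : IsManifold (𝓡 4) ∞ X
  cpt : CompactSpace X
  t2 : T2Space X
  conn : ConnectedSpace X
  borel : BorelSpace X

attribute [instance] Cl4.mfd Cl4.cpt Cl4.t2 Cl4.conn Cl4.borel

section defs

variable {X : Type} [TopologicalSpace X] [ChartedSpace HS.E4 X]

/-- triples of two-forms -/
abbrev Tri (X : Type) [TopologicalSpace X] [ChartedSpace HS.E4 X] := Fin 3 → Form X 2

/-- fields of endomorphisms -/
abbrev EndF (X : Type) [TopologicalSpace X] [ChartedSpace HS.E4 X] :=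
  ∀ x : X, TangentSpace (𝓡 4) x →L[ℝ] TangentSpace (𝓡 4) x

/-- smooth and closed -/
def SC {k : ℕ} (α : Form X k) : Prop := Smooth α ∧ Closed α

/-- continuous forms -/
def Cont {k : ℕ} (α : Form X k) : Prop := ∀ c ∈ atlas HS.E4 X, ContinuousOn (loc c α) c.target

/-- smooth on an open set -/
def SmoothOn {k : ℕ} (U : Set X) (α : Form X k) : Prop :=
  ∀ c ∈ atlas HS.E4 X, ContDiffOn ℝ ∞ (loc c α) (c.target ∩ c.symm ⁻¹' U)

/-- `d η = α` on `U` -/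
def DOn (U : Set X) (η : Form X 1) (α : Form X 2) : Prop :=
  ∀ c ∈ atlas HS.E4 X, ∀ y ∈ c.target, c.symm y ∈ U → extDeriv (loc c η) y = loc c α y

/-- cohomologous two-forms -/
def Coh (α β : Form X 2) : Prop := Exact fun x => α x - β x

/-- `b₁ = 0`: closed one-forms are exact -/
def B1Zero (X : Type) [TopologicalSpace X] [ChartedSpace HS.E4 X] : Prop :=
  ∀ θ : Form X 1, SC θ → ∃ f : X → ℝ, ContMDiff (𝓡 4) 𝓘(ℝ, ℝ) ∞ f ∧
    ∀ x (v : TangentSpace (𝓡 4) x), θ x ![v] = mfderiv (𝓡 4) 𝓘(ℝ, ℝ) f x v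

/-- the intersection form has a negative subspace of dimension `n` -/
def BMinusGe [MeasurableSpace X] (μ : Form X 4) (n : ℕ) : Prop :=
  ∃ c : Fin n → Form X 2, (∀ i, SC (c i)) ∧ (Matrix.of fun i j => - pair μ (c i) (c j)).PosDef

/-- The almost complex structure of a triple: `w 0`, `w 1` are anti-invariant, `w 2` tames. -/
def Jw (w : Tri X) : EndF X := Jf (w 2) (w 0) (w 1)

/-- hyperkaehler triples -/
def Hyperkahler (μ : Form X 4) (w : Tri X) : Prop :=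
  Hypersymplectic μ w ∧ ∃ μ' : Form X 4, Volume μ' ∧
    (∀ x, 0 < μ' x (tbas x) / μ x (tbas x)) ∧ ∀ x, Qm μ' w x = 1

/-- one-slot moves (the classes may change), from block F -/
abbrev Move (μ : Form X 4) (w w' : Tri X) : Prop := P247F.Mv μ w w'

/-- chains of one-slot moves, from block F -/
abbrev Chain (μ : Form X 4) (w w' : Tri X) : Prop := P247F.Ch μ w w'

/-- the triple is hypersymplectic and the pair `w 0`, `w 1` is integrable -/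
def IntPair (μ : Form X 4) (w : Tri X) : Prop :=
  Hypersymplectic μ w ∧ P247F.IntPair μ (w 0) (w 1)

/-! ## Line bundles -/

/-- the differential of a complex function -/
def dfc (g : X → ℂ) (x : X) (v : TangentSpace (𝓡 4) x) : ℂ := mfderiv (𝓡 4) 𝓘(ℝ, ℂ) g x v

/-- A hermitian line bundle with a unitary connection.  Sections are families `σ i` with
`σ i = g i j * σ j`, `∇ σ = d σ i - I * A i * σ i`, the curvature is `d (A i) = 2 π F`; the integral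
of `F` over a surface is the sum of the winding numbers of the zeros of a section. -/
structure LB (X : Type) [TopologicalSpace X] [ChartedSpace HS.E4 X] where
  n : ℕ
  U : Fin n → Set X
  opn : ∀ i, IsOpen (U i)
  cov : ∀ x, ∃ i, x ∈ U i
  g : Fin n → Fin n → X → ℂ
  g_smooth : ∀ i j, ContMDiffOn (𝓡 4) 𝓘(ℝ, ℂ) ∞ (g i j) (U i ∩ U j)
  g_norm : ∀ i j, ∀ x ∈ U i ∩ U j, ‖g i j x‖ = 1
  g_co : ∀ i j k, ∀ x ∈ U i ∩ U j ∩ U k, g i j x * g j k x = g i k x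
  A : Fin n → Form X 1
  A_smooth : ∀ i, SmoothOn (U i) (A i)
  A_tr : ∀ i j, ∀ x ∈ U i ∩ U j, ∀ v : TangentSpace (𝓡 4) x, A i x ![v] - A j x ![v] =
    ((starRingEnd ℂ) (g i j x) * dfc (g i j) x v).im
  F : Form X 2
  F_sc : SC F
  dA : ∀ i, DOn (U i) (A i) (fun x => (2 * Real.pi) • F x)

/-- a smooth section of norm one -/
def LB.Triv (L : LB X) : Prop := ∃ σ : Fin L.n → X → ℂ,
  (∀ i, ContMDiffOn (𝓡 4) 𝓘(ℝ, ℂ) ∞ (σ i) (L.U i)) ∧ (∀ i, ∀ x ∈ L.U i, ‖σ i x‖ = 1) ∧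
  ∀ i j, ∀ x ∈ L.U i ∩ L.U j, σ i x = L.g i j x * σ j x

/-- linear combinations of forms -/
def lc {n : ℕ} (c : Fin n → Form X 2) (v : Fin n → ℝ) : Form X 2 := fun x => ∑ i, v i • c i x

/-- A marking: a basis of `H²` by Chern forms, with the Gram matrix of the K3 lattice. -/
structure Marking [MeasurableSpace X] (μ : Form X 4) where
  G : Matrix (Fin 22) (Fin 22) ℤ
  k3 : IsK3L G
  c : Fin 22 → Form X 2
  sc : ∀ i, SC (c i)
  gram : ∀ i j, pair μ (c i) (c j) = G i j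
  span : ∀ α : Form X 2, SC α → ∃ v, Coh α (lc c v)
  int : ∀ v : Fin 22 → ℤ, ∃ L : LB X, L.F = lc c (cs ℝ v)

/-- the triple `w` has the periods `a` -/
def Marking.Rep [MeasurableSpace X] {μ : Form X 4} (M : Marking μ) (w : Tri X)
    (a : Fin 3 → Fin 22 → ℝ) : Prop := ∀ i, Coh (w i) (lc M.c (a i))

/-! ## Curves -/

/-- the differential of a map `ℂ → X` -/
abbrev dm (u : ℂ → X) (z : ℂ) (a : ℂ) : TangentSpace (𝓡 4) (u z) :=
  mfderiv 𝓘(ℝ, ℂ) (𝓡 4) u z a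

/-- the pull-back of a two-form, divided by `dx ∧ dy` -/
def pull2 (φ : Form X 2) (u : ℂ → X) (z : ℂ) : ℝ := φ (u z) ![dm u z 1, dm u z Complex.I]

/-- the Cauchy-Riemann equation -/
def JAt (J : EndF X) (u : ℂ → X) (z : ℂ) : Prop := dm u z Complex.I = J (u z) (dm u z 1)

/-- embedded `J`-holomorphic spheres, with the two charts of `ℂℙ¹` -/
structure Sph (J : EndF X) where
  u : ℂ → X
  v : ℂ → X
  u_smooth : ContMDiff 𝓘(ℝ, ℂ) (𝓡 4) ∞ u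
  v_smooth : ContMDiff 𝓘(ℝ, ℂ) (𝓡 4) ∞ v
  glue : ∀ z, z ≠ 0 → v z = u z⁻¹
  inj : Function.Injective u
  inf : v 0 ∉ range u
  u_imm : ∀ z, dm u z 1 ≠ 0
  v_imm : ∀ z, dm v z 1 ≠ 0
  u_hol : ∀ z, JAt J u z
  v_hol : ∀ z, JAt J v z

def Sph.set {J : EndF X} (S : Sph J) : Set X := insert (S.v 0) (range S.u)
def Sph.int {J : EndF X} (S : Sph J) (φ : Form X 2) : ℝ := ∫ z, pull2 φ S.u z

/-- embedded `J`-holomorphic tori -/
structure Tor (J : EndF X) where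
  u : ℂ → X
  τ : ℂ
  τ_pos : 0 < τ.im
  smooth : ContMDiff 𝓘(ℝ, ℂ) (𝓡 4) ∞ u
  per : ∀ (m n : ℤ) z, u (z + m + n * τ) = u z
  inj : ∀ z z', u z = u z' → ∃ m n : ℤ, z' = z + m + n * τ
  imm : ∀ z, dm u z 1 ≠ 0
  hol : ∀ z, JAt J u z

/-- the fundamental parallelogram -/
def para (τ : ℂ) : Set ℂ := {z | ∃ s ∈ Ico (0 : ℝ) 1, ∃ t ∈ Ico (0 : ℝ) 1, z = s + t * τ}

def Tor.set {J : EndF X} (T : Tor J) : Set X := range T.u
def Tor.int {J : EndF X} (T : Tor J) (φ : Form X 2) : ℝ := ∫ z in para T.τ, pull2 φ T.u z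

/-- `K` is the image of the Riemann sphere, at most one pair of points is identified -/
def Rat (K : Set X) : Prop := ∃ n : OnePoint ℂ → X, Continuous n ∧ range n = K ∧
  ∃ p q, ∀ s t, n s = n t → s = t ∨ (s = p ∧ t = q) ∨ (s = q ∧ t = p)

/-- Near `x` (in the open set `U`) the set `K` is the union of the `J`-discs `u l` through `x`,
which are injective, immersed off `0`, and disjoint outside `x`. -/
structure BrsX (J : EndF X) (K : Set X) (x : X) (N : ℕ) (u : Fin N → ℂ → X) (U : Set X) :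
    Prop where
  posN : 0 < N
  opn : IsOpen U
  memU : x ∈ U
  smooth : ∀ l, ContMDiffOn 𝓘(ℝ, ℂ) (𝓡 4) ∞ (u l) (ball 0 2)
  hol : ∀ l, ∀ z ∈ ball (0 : ℂ) 2, JAt J (u l) z
  zero : ∀ l, u l 0 = x
  imm : ∀ l, ∀ z ∈ ball (0 : ℂ) 2, z ≠ 0 → dm (u l) z 1 ≠ 0
  inj : ∀ l l', ∀ z ∈ ball (0 : ℂ) 2, ∀ z' ∈ ball (0 : ℂ) 2, u l z = u l' z' →
    (l = l' ∧ z = z') ∨ (z = 0 ∧ z' = 0)
  far : ∀ l, ∀ z ∈ ball (0 : ℂ) 2, 1 ≤ ‖z‖ → u l z ∉ U
  mem : ∀ l, ∀ z ∈ ball (0 : ℂ) 2, u l z ∈ K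
  cov : ∀ y ∈ U, y ∈ K → ∃ l, ∃ z ∈ ball (0 : ℂ) 1, u l z = y

/-- integration over a disc -/
def brX (u : ℂ → X) (φ : Form X 2) : ℝ := ∫ z in ball (0 : ℂ) 1, pull2 φ u z

/-- `φ` vanishes outside a compact subset of `U` -/
def SuppIn {k : ℕ} (φ : Form X k) (U : Set X) : Prop :=
  ∃ C, IsCompact C ∧ C ⊆ U ∧ ∀ x, x ∉ C → φ x = 0

/-- regular points: one immersed branch -/
def RegPt (J : EndF X) (K : Set X) (x : X) : Prop :=
  ∃ (u : Fin 1 → ℂ → X) (U : Set X), BrsX J K x 1 u U ∧ dm (u 0) 0 1 ≠ 0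

/-- functionals which are linear on continuous forms -/
structure LinC (T : Form X 2 → ℝ) : Prop where
  add : ∀ φ ψ, Cont φ → Cont ψ → T (fun x => φ x + ψ x) = T φ + T ψ
  smul : ∀ (c : ℝ) φ, Cont φ → T (fun x => c • φ x) = c * T φ

/-- positivity -/
def PosF (J : EndF X) (T : Form X 2 → ℝ) : Prop :=
  ∀ φ, Cont φ → (∀ x v, 0 ≤ φ x ![v, J x v]) → 0 ≤ T φ

/-- closed positive currents -/
structure PCur (J : EndF X) (T : Form X 2 → ℝ) : Prop extends LinC T where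
  closed : ∀ φ, Smooth φ → Exact φ → T φ = 0
  pos : PosF J T

/-- the support of a functional -/
def suppT (T : Form X 2 → ℝ) : Set X :=
  {x | ∀ U ∈ 𝓝 x, ∃ φ, Cont φ ∧ SuppIn φ U ∧ T φ ≠ 0}

/-- irreducible `J`-curves, with the current of integration -/
structure Irr (J : EndF X) where
  K : Set X
  cpt : IsCompact K
  ne : K.Nonempty
  T : Form X 2 → ℝ
  lin : LinC T
  off : ∀ φ, Cont φ → SuppIn φ Kᶜ → T φ = 0
  loc : ∀ x ∈ K, ∃ (N : ℕ) (u : Fin N → ℂ → X) (U : Set X), BrsX J K x N u U ∧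
    ∀ φ, Cont φ → SuppIn φ U → T φ = ∑ l, brX (u l) φ
  irr : IsPreconnected {x | x ∈ K ∧ RegPt J K x}

/-- the closed form `α` represents the class of `T` -/
def IsCls [MeasurableSpace X] (μ : Form X 4) (T : Form X 2 → ℝ) (α : Form X 2) : Prop :=
  SC α ∧ ∀ φ, SC φ → T φ = pair μ α φ

/-- `K` and `K'` have no common tangent vector at `x` -/
def TransAt (K K' : Set X) (x : X) : Prop := ∀ γ γ' : ℝ → X, γ 0 = x → γ' 0 = x →
  MDifferentiableAt 𝓘(ℝ, ℝ) (𝓡 4) γ 0 → MDifferentiableAt 𝓘(ℝ, ℝ) (𝓡 4) γ' 0 →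
  (∀ᶠ t in 𝓝 (0 : ℝ), γ t ∈ K) → (∀ᶠ t in 𝓝 (0 : ℝ), γ' t ∈ K') →
  (mfderiv 𝓘(ℝ, ℝ) (𝓡 4) γ 0 (1 : ℝ) : HS.E4) = (mfderiv 𝓘(ℝ, ℝ) (𝓡 4) γ' 0 (1 : ℝ) : HS.E4) →
  (mfderiv 𝓘(ℝ, ℝ) (𝓡 4) γ 0 (1 : ℝ) : HS.E4) = 0

/-! ## Transplant charts and integral currents -/

/-- A chart in which the triple agrees with periodic data of the four-torus files. -/
structure LocT (w : Tri X) where
  κ : OpenPartialHomeomorph X R4
  smooth : ContMDiffOn (𝓡 4) 𝓘(ℝ, R4) ∞ κ κ.source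
  smooth_symm : ContMDiffOn 𝓘(ℝ, R4) (𝓡 4) ∞ κ.symm κ.target
  small : κ.target ⊆ ball 0 (1 / 4)
  D : Data
  good : Good D
  eta : ∀ j : Fin 2, ∀ y ∈ κ.target, ∀ u v : R4, (D.η j).val y u v = w j.castSucc (κ.symm y)
    ![mfderiv 𝓘(ℝ, R4) (𝓡 4) κ.symm y u, mfderiv 𝓘(ℝ, R4) (𝓡 4) κ.symm y v]
  om : ∀ y ∈ κ.target, ∀ u v : R4, D.om.val y u v = w 2 (κ.symm y)
    ![mfderiv 𝓘(ℝ, R4) (𝓡 4) κ.symm y u, mfderiv 𝓘(ℝ, R4) (𝓡 4) κ.symm y v]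
  J : ∀ y ∈ κ.target, ∀ u : R4, mfderiv 𝓘(ℝ, R4) (𝓡 4) κ.symm y (D.J y u) =
    Jw w (κ.symm y) (mfderiv 𝓘(ℝ, R4) (𝓡 4) κ.symm y u)

/-- `ψ` is the pull-back of `φ` by the chart, extended by zero -/
def IsPb {w : Tri X} (t : LocT w) (φ : R4 → F2) (ψ : Form X 2) : Prop :=
  (∀ x, x ∉ t.κ.source → ψ x = 0) ∧ ∀ x ∈ t.κ.source, ∀ u v : TangentSpace (𝓡 4) x,
    ψ x ![u, v] = φ (t.κ x) (mfderiv (𝓡 4) 𝓘(ℝ, R4) t.κ x u) (mfderiv (𝓡 4) 𝓘(ℝ, R4) t.κ x v)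

/-- closed positive integral currents: the slices in all boxes are sums of Dirac measures -/
structure ICurX (w : Tri X) (T : Form X 2 → ℝ) : Prop extends PCur (Jw w) T where
  int : ∀ (t : LocT w) (b : Box t.D), b.Θ '' PD 2 ⊆ t.κ.target → ∃ ν : ℂ → Measure ℂ,
    (∀ᵐ z ∂volume.restrict (ball (0 : ℂ) 1), IntM (ν z)) ∧
    ∀ f : ℂ × ℂ → ℝ, Continuous f → HasCompactSupport f → tsupport f ⊆ PD 1 →
      IntegrableOn (fun z => ∫ y, f (z, y) ∂(ν z)) (ball 0 1) ∧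
      ∀ φ ψ, IsPush b f φ → IsPb t φ ψ → T ψ = ∫ z in ball (0 : ℂ) 1, ∫ y, f (z, y) ∂(ν z)

/-- the local structure of an integral current -/
def LocStrX (J : EndF X) (T : Form X 2 → ℝ) (x : X) : Prop :=
  ∃ (N : ℕ) (u : Fin N → ℂ → X) (k : Fin N → ℕ) (U : Set X), BrsX J (suppT T) x N u U ∧
    (∀ l, 1 ≤ k l) ∧ ∀ φ, Cont φ → SuppIn φ U → T φ = ∑ l, (k l : ℝ) * brX (u l) φ

/-! ## Standard neighbourhoods of spheres, Kummer presentations -/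

/-- the differential of a map `ℂ² → X` -/
abbrev dm2 (p : ℂ × ℂ → X) (z a : ℂ × ℂ) : TangentSpace (𝓡 4) (p z) :=
  mfderiv 𝓘(ℝ, ℂ × ℂ) (𝓡 4) p z a

/-- the disc bundle of radius `r` in a chart `(v, ζ)` of `T^* ℂℙ¹` -/
def Nr (r : ℝ) : Set (ℂ × ℂ) := {z | ‖z.1‖ * (1 + ‖z.2‖ ^ 2) < r}

/-- `dv ∧ dζ / 2` -/
def om0 (a b : ℂ × ℂ) : ℂ := (a.1 * b.2 - a.2 * b.1) / 2

/-- A neighbourhood of the zero section in `T^* ℂℙ¹ =` resolution of `ℂ² / ± 1`, in which the pair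
is `(Re, ± Im)` of the holomorphic symplectic form; `(z₁, z₂) = (u, u ζ)` has `v = u²` in the chart
`p`, and `(z₁, z₂) = (u ζ, u)` has `v = u²` in the chart `q`. -/
structure Std (w : Tri X) where
  r : ℝ
  r_pos : 0 < r
  s : ℝ
  s_sq : s * s = 1
  p : ℂ × ℂ → X
  q : ℂ × ℂ → X
  p_smooth : ContMDiffOn 𝓘(ℝ, ℂ × ℂ) (𝓡 4) ∞ p (Nr r)
  q_smooth : ContMDiffOn 𝓘(ℝ, ℂ × ℂ) (𝓡 4) ∞ q (Nr r)
  p_inj : InjOn p (Nr r)
  q_inj : InjOn q (Nr r)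
  p_imm : ∀ z ∈ Nr r, Function.Bijective (dm2 p z)
  q_imm : ∀ z ∈ Nr r, Function.Bijective (dm2 q z)
  glue : ∀ z ∈ Nr r, z.2 ≠ 0 → q (z.1 * z.2 ^ 2, z.2⁻¹) = p z
  sep : ∀ z ∈ Nr r, ∀ z' ∈ Nr r, p z = q z' → z.2 ≠ 0 ∧ z' = (z.1 * z.2 ^ 2, z.2⁻¹)
  p0 : ∀ z ∈ Nr r, ∀ a b, w 0 (p z) ![dm2 p z a, dm2 p z b] = (om0 a b).re
  p1 : ∀ z ∈ Nr r, ∀ a b, w 1 (p z) ![dm2 p z a, dm2 p z b] = s * (om0 a b).im
  q0 : ∀ z ∈ Nr r, ∀ a b, w 0 (q z) ![dm2 q z a, dm2 q z b] = - (om0 a b).re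
  q1 : ∀ z ∈ Nr r, ∀ a b, w 1 (q z) ![dm2 q z a, dm2 q z b] = - (s * (om0 a b).im)
  p_hol : ∀ z ∈ Nr r, ∀ a, dm2 p z (Complex.I • a) = Jw w (p z) (dm2 p z a)
  q_hol : ∀ z ∈ Nr r, ∀ a, dm2 q z (Complex.I • a) = Jw w (q z) (dm2 q z a)

/-- the zero section -/
def Std.set {w : Tri X} (S : Std w) : Set X := insert (S.q (0, 0)) (range fun ζ => S.p (0, ζ))
/-- the neighbourhood -/
def Std.nb {w : Tri X} (S : Std w) : Set X := S.p '' Nr S.r ∪ S.q '' Nr S.r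

/-- the half lattice -/
def Hf : Set R4 := {x | ∀ i, ∃ n : ℤ, x i = n / 2}

/-- the round ball `|z₁|² + |z₂|² < ρ` -/
def B2 (ρ : ℝ) : Set (ℂ × ℂ) := {z | ‖z.1‖ ^ 2 + ‖z.2‖ ^ 2 < ρ}

/-- the differential of a map `ℝ⁴ → X` -/
abbrev dm4 (P : R4 → X) (x a : R4) : TangentSpace (𝓡 4) (P x) :=
  mfderiv 𝓘(ℝ, R4) (𝓡 4) P x a

/-- A Kummer presentation of `X`: `X` minus the sixteen spheres is `(ℝ⁴ - Hf) / (ℤ⁴, ± 1)`, the
coordinate tori of both families are `J`-holomorphic as unparametrised oriented surfaces. -/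
structure KP (w : Tri X) where
  St : (Fin 4 → Fin 2) → Std w
  disj : ∀ a b, a ≠ b → Disjoint (St a).nb (St b).nb
  P : R4 → X
  smooth : ContMDiffOn 𝓘(ℝ, R4) (𝓡 4) ∞ P Hfᶜ
  imm : ∀ x, x ∉ Hf → Function.Bijective (dm4 P x)
  per : ∀ k x, P (tr k x) = P x
  even : ∀ x, P (-x) = P x
  inj : ∀ x y, x ∉ Hf → y ∉ Hf → P x = P y → ∃ k, y = tr k x ∨ y = tr k (-x)
  off : ∀ x, x ∉ Hf → ∀ a, P x ∉ (St a).set
  surj : ∀ z, (∀ a, z ∉ (St a).set) → ∃ x, x ∉ Hf ∧ P x = z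
  ρ : ℝ
  ρ_pos : 0 < ρ
  ρ_le : ∀ a, ρ ≤ (St a).r
  θ : (Fin 4 → Fin 2) → ℂ × ℂ → R4
  θ_smooth : ∀ a, ContDiffOn ℝ ∞ (θ a) (B2 ρ)
  θ_imm : ∀ a, ∀ z ∈ B2 ρ, Function.Bijective (fderiv ℝ (θ a) z)
  θ_inj : ∀ a, InjOn (θ a) (B2 ρ)
  θ_zero : ∀ a i, θ a 0 i = ((a i : ℕ) : ℝ) / 2
  θ_odd : ∀ a, ∀ z ∈ B2 ρ, θ a (-z) = fun i => ((a i : ℕ) : ℝ) - θ a z i
  θ_off : ∀ a, ∀ z ∈ B2 ρ, z ≠ 0 → θ a z ∉ Hf
  θ_p : ∀ a (u ζ : ℂ), u ≠ 0 → (u, u * ζ) ∈ B2 ρ → P (θ a (u, u * ζ)) = (St a).p (u ^ 2, ζ)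
  θ_q : ∀ a (u ζ : ℂ), u ≠ 0 → (u * ζ, u) ∈ B2 ρ → P (θ a (u * ζ, u)) = (St a).q (u ^ 2, ζ)
  lag : ∀ x, x ∉ Hf → ∀ j : Fin 2, w j.castSucc (P x) ![dm4 P x (e 0), dm4 P x (e 1)] = 0 ∧
    w j.castSucc (P x) ![dm4 P x (e 2), dm4 P x (e 3)] = 0
  pos : ∀ x, x ∉ Hf → 0 < w 2 (P x) ![dm4 P x (e 0), dm4 P x (e 1)] ∧
    0 < w 2 (P x) ![dm4 P x (e 2), dm4 P x (e 3)]

end defs

/-! ## Lattice notions -/

section lattice

variable (G : Matrix (Fin 22) (Fin 22) ℤ)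

/-- roots -/
def Root (ρ : Fin 22 → ℤ) : Prop := bil G ρ ρ = -2

/-- positive triples -/
def PosT (a : Fin 3 → Fin 22 → ℝ) : Prop := (Matrix.of fun i j => bil G (a i) (a j)).PosDef

/-- one-slot moves of periods inside a chamber -/
def LMove (a a' : Fin 3 → Fin 22 → ℝ) : Prop := ∃ i, (∀ j, j ≠ i → a' j = a j) ∧
  (∀ s ∈ Icc (0 : ℝ) 1, PosT G fun j => (1 - s) • a j + s • a' j) ∧
  ∀ ρ, Root G ρ → (∀ j, j ≠ i → bil G (cs ℝ ρ) (a j) = 0) → 0 < bil G (cs ℝ ρ) (a i) →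
    0 < bil G (cs ℝ ρ) (a' i)

/-- `r` is a wall of the chamber of `k 2` in the orthogonal complement of `k 0`, `k 1` -/
def Wall (k : Fin 3 → Fin 22 → ℝ) (r : Fin 22 → ℤ) : Prop :=
  Root G r ∧ bil G (cs ℝ r) (k 0) = 0 ∧ bil G (cs ℝ r) (k 1) = 0 ∧
  ∃ a : Fin 22 → ℝ, (∀ s ∈ Icc (0 : ℝ) 1, PosT G ![k 0, k 1, (1 - s) • k 2 + s • a]) ∧
    bil G (cs ℝ r) a = 0 ∧ ∀ ρ, Root G ρ → bil G (cs ℝ ρ) (k 0) = 0 → bil G (cs ℝ ρ) (k 1) = 0 →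
      0 < bil G (cs ℝ ρ) (k 2) → ρ = r ∨ 0 < bil G (cs ℝ ρ) a

/-- The double Kummer configuration, with periods `k`. -/
structure DK where
  d : Fin 4 → Fin 4 → Fin 22 → ℤ
  C : Fin 4 → Fin 22 → ℤ
  D : Fin 4 → Fin 22 → ℤ
  F₁ : Fin 22 → ℤ
  F₂ : Fin 22 → ℤ
  k : Fin 3 → Fin 22 → ℝ
  dd : ∀ i j i' j', bil G (d i j) (d i' j') = if i = i' ∧ j = j' then -2 else 0
  CC : ∀ i i', bil G (C i) (C i') = if i = i' then -2 else 0
  DD : ∀ j j', bil G (D j) (D j') = if j = j' then -2 else 0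
  CD : ∀ i j, bil G (C i) (D j) = 0
  Cd : ∀ i i' j, bil G (C i) (d i' j) = if i = i' then 1 else 0
  Dd : ∀ j i j', bil G (D j) (d i j') = if j = j' then 1 else 0
  hF₁ : ∀ i, F₁ = (2 : ℤ) • C i + ∑ j, d i j
  hF₂ : ∀ j, F₂ = (2 : ℤ) • D j + ∑ i, d i j
  pos : PosT G k
  wd : ∀ i j, Wall G k (d i j)
  wC : ∀ i, Wall G k (C i)
  wD : ∀ j, Wall G k (D j)
  /-- the configuration spans the integral classes orthogonal to `k 0`, `k 1` rationally -/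
  gen : ∀ v : Fin 22 → ℤ, bil G (cs ℝ v) (k 0) = 0 → bil G (cs ℝ v) (k 1) = 0 →
    (∀ i j, bil G v (d i j) = 0) → (∀ i, bil G v (C i) = 0) → (∀ j, bil G v (D j) = 0) → v = 0

end lattice

/-! ## The blocks -/

/-- `b₁ = 0` and `b⁺ ≤ 3` -/
structure Top0 {X : Type} [Cl4 X] (μ : Form X 4) : Prop where
  vol : Volume μ
  b1 : B1Zero X
  bp : BPlusLe3 μ

/-- block E+I+R -/
def ROOT_statement : Prop := ∀ (X : Type) [Cl4 X] (μ : Form X 4), Top0 μ → ∀ w : Tri X,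
  Hypersymplectic μ w → ∀ L : LB X, (∀ i, pair μ L.F (w i) = 0) → pair μ L.F L.F ≠ -2

/-- block E+I+R -/
def FLAT_statement : Prop := ∀ (X : Type) [Cl4 X] (μ : Form X 4), Top0 μ → ∀ w : Tri X,
  Hypersymplectic μ w → ∀ L : LB X, Exact L.F → L.Triv

/-- block I -/
def EVEN_statement : Prop := ∀ (X : Type) [Cl4 X] (μ : Form X 4), Volume μ → ∀ w : Tri X,
  Hypersymplectic μ w → ∀ L : LB X, ∃ n : ℤ, pair μ L.F L.F = 2 * n

/-- block L -/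
def MARK_statement : Prop := ∀ (X : Type) [Cl4 X] (μ : Form X 4), Volume μ → BPlusLe3 μ →
  BMinusGe μ 19 → ¬ BMinusGe μ 20 → ∀ w : Tri X, Hypersymplectic μ w → Nonempty (Marking μ)

/-- block K -/
def PERIOD_statement : Prop := ∀ G : Matrix (Fin 22) (Fin 22) ℤ, IsK3L G →
  ∀ a : Fin 3 → Fin 22 → ℝ, PosT G a → (∀ ρ, Root G ρ → ∃ i, bil G (cs ℝ ρ) (a i) ≠ 0) →
  ∃ K : DK G, Relation.ReflTransGen (LMove G) a K.k

/-- block LS -/
def TRANS_statement : Prop := ∀ (X : Type) [Cl4 X] (μ : Form X 4), Volume μ → ∀ w : Tri X,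
  Hypersymplectic μ w → ∀ x : X, ∀ U ∈ 𝓝 x, ∃ t : LocT w, x ∈ t.κ.source ∧ t.κ.source ⊆ U

/-- block LS -/
def LSX_statement : Prop := ∀ (X : Type) [Cl4 X] (μ : Form X 4), Volume μ → ∀ w : Tri X,
  Hypersymplectic μ w → ∀ T, ICurX w T → ∀ x ∈ suppT T, LocStrX (Jw w) T x

/-- block N -/
def SIUA_statement : Prop := ∀ (X : Type) [Cl4 X] (μ : Form X 4), Volume μ → ∀ w : Tri X,
  Hypersymplectic μ w → ∀ T, PCur (Jw w) T → ∀ α, IsCls μ T α → pair μ α α < 0 →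
  ∃ (c : ℝ) (S : Form X 2 → ℝ), 0 < c ∧ ICurX w S ∧ (suppT S).Nonempty ∧
    PosF (Jw w) fun φ => T φ - c * S φ

/-- block N -/
def SIUB_statement : Prop := ∀ (X : Type) [Cl4 X] (μ : Form X 4), Volume μ → ∀ w : Tri X,
  Hypersymplectic μ w → ∀ (ι : Type) (𝒰 : Ultrafilter ι) (K : ι → Tor (Jw w)) (M : ℝ),
  (∀ n, (K n).int (w 2) ≤ M) →
  ∃ (m : ℕ) (S : Fin m → Form X 2 → ℝ) (c : Fin m → ℝ), (∀ i, 0 < c i ∧ ICurX w (S i)) ∧
    (∀ φ, Cont φ → Tendsto (fun n => (K n).int φ) (𝒰 : Filter ι) (𝓝 (∑ i, c i * S i φ))) ∧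
    ∀ x, (∀ U ∈ 𝓝 x, ∀ᶠ n in (𝒰 : Filter ι), (U ∩ (K n).set).Nonempty) → ∃ i, x ∈ suppT (S i)

/-- block C: decomposition into irreducible curves -/
def DEC_statement : Prop := ∀ (X : Type) [Cl4 X] (μ : Form X 4), Volume μ → ∀ w : Tri X,
  Hypersymplectic μ w → ∀ T, PCur (Jw w) T → (∀ x ∈ suppT T, LocStrX (Jw w) T x) →
  ∃ (m : ℕ) (K : Fin m → Irr (Jw w)) (k : Fin m → ℕ), (∀ i, 1 ≤ k i) ∧
    suppT T = ⋃ i, (K i).K ∧ ∀ φ, Cont φ → T φ = ∑ i, (k i : ℝ) * (K i).T φ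

/-- block C: basic properties of irreducible curves -/
def IRR_statement : Prop := ∀ (X : Type) [Cl4 X] (μ : Form X 4), Volume μ → ∀ w : Tri X,
  Hypersymplectic μ w → ∀ K : Irr (Jw w), PCur (Jw w) K.T ∧ 0 < K.T (w 2) ∧
    IsPreconnected K.K ∧ (∀ L : LB X, ∃ n : ℤ, K.T L.F = n) ∧
    ∀ K' : Irr (Jw w), K'.K = K.K → ∀ φ, Cont φ → K'.T φ = K.T φ

/-- block C: spheres and tori are irreducible curves -/
def EMB_statement : Prop := ∀ (X : Type) [Cl4 X] (μ : Form X 4), Volume μ → ∀ w : Tri X,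
  Hypersymplectic μ w →
  (∀ S : Sph (Jw w), ∃ K : Irr (Jw w), K.K = S.set ∧ (∀ x ∈ K.K, RegPt (Jw w) K.K x) ∧
    ∀ φ, Cont φ → K.T φ = S.int φ) ∧
  ∀ S : Tor (Jw w), ∃ K : Irr (Jw w), K.K = S.set ∧ (∀ x ∈ K.K, RegPt (Jw w) K.K x) ∧
    ∀ φ, Cont φ → K.T φ = S.int φ

/-- block C: positivity of intersections -/
def POS_statement : Prop := ∀ (X : Type) [Cl4 X] (μ : Form X 4), Volume μ → ∀ w : Tri X,
  Hypersymplectic μ w → ∀ K K' : Irr (Jw w), K.K ≠ K'.K → ∀ α, IsCls μ K'.T α →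
  (K.K ∩ K'.K).Finite ∧ ((K.K ∩ K'.K).ncard : ℝ) ≤ K.T α ∧
    (((K.K ∩ K'.K).ncard : ℝ) = K.T α → ∀ x ∈ K.K ∩ K'.K, TransAt K.K K'.K x) ∧
    ((∀ x ∈ K.K ∩ K'.K, RegPt (Jw w) K.K x ∧ RegPt (Jw w) K'.K x ∧ TransAt K.K K'.K x) →
      ((K.K ∩ K'.K).ncard : ℝ) = K.T α)

/-- block C: adjunction -/
def ADJ_statement : Prop := ∀ (X : Type) [Cl4 X] (μ : Form X 4), Volume μ → ∀ w : Tri X,
  Hypersymplectic μ w → ∀ K : Irr (Jw w), ∀ α, IsCls μ K.T α →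
  -2 ≤ K.T α ∧ (K.T α = -2 → ∃ S : Sph (Jw w), S.set = K.K) ∧
    (K.T α = 0 → (∃ S : Tor (Jw w), S.set = K.K) ∨ Rat K.K)

/-- block F: soft Nakai-Moishezon -/
def NM_statement : Prop := ∀ (X : Type) [Cl4 X] (μ : Form X 4), Top0 μ → ∀ M : Marking μ,
  ∀ w : Tri X, Hypersymplectic μ w → ∀ k, M.Rep w k → ∀ a : Fin 22 → ℝ,
  (∀ s ∈ Icc (0 : ℝ) 1, PosT M.G ![k 0, k 1, (1 - s) • k 2 + s • a]) →
  (∃ τ, Coh τ (lc M.c a) ∧ Move μ w ![w 0, w 1, τ]) ∨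
  ∃ (S : Sph (Jw w)) (ρ : Fin 22 → ℤ), Root M.G ρ ∧ IsCls μ S.int (lc M.c (cs ℝ ρ)) ∧
    bil M.G (cs ℝ ρ) a ≤ 0

/-- block F: lifting of period moves -/
def CH1_statement : Prop := ∀ (X : Type) [Cl4 X] (μ : Form X 4), Top0 μ → ∀ M : Marking μ,
  ∀ w : Tri X, Hypersymplectic μ w → ∀ a a', M.Rep w a → LMove M.G a a' →
  ∃ w', Move μ w w' ∧ M.Rep w' a'

/-- block F: walls are spheres -/
def CH2_statement : Prop := ∀ (X : Type) [Cl4 X] (μ : Form X 4), Top0 μ → ∀ M : Marking μ,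
  ∀ w : Tri X, Hypersymplectic μ w → ∀ k r, M.Rep w k → Wall M.G k r →
  ∃ S : Sph (Jw w), IsCls μ S.int (lc M.c (cs ℝ r))

/-- block F: free periods, Newlander-Nirenberg, compatible form, Yau -/
def FREE_statement : Prop := ∀ (X : Type) [Cl4 X] (μ : Form X 4), Top0 μ → Nonempty (Marking μ) →
  ∀ w w' : Tri X, Chain μ w w' → IntPair μ w' → Normalized μ w →
  ∃ W, Deformation μ w W ∧ Hyperkahler μ (W 1)

/-- block F: segments and continuous paths are chains -/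
def CHAIN_statement : Prop := ∀ (X : Type) [Cl4 X] (μ : Form X 4), Volume μ →
  (∀ w v : Tri X, P247F.Seg μ w v → Chain μ w v) ∧
  (∀ W : ℝ → Tri X, P247F.CPath μ W → Chain μ (W 0) (W 1)) ∧
  ∀ w v : Tri X, Chain μ w v → Chain μ v w

/-- block S: straightening -/
def STR_statement : Prop := ∀ (X : Type) [Cl4 X] (μ : Form X 4), Volume μ → ∀ w : Tri X,
  Hypersymplectic μ w → ∀ (n : ℕ) (δ : Fin n → Sph (Jw w)),
  (∀ a b, a ≠ b → Disjoint (δ a).set (δ b).set) →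
  ∃ (w' : Tri X) (St : Fin n → Std w'), Hypersymplectic μ w' ∧ Chain μ w w' ∧
    (∀ i, Coh (w' i) (w i)) ∧ (∀ a b, a ≠ b → Disjoint (St a).nb (St b).nb) ∧
    ∀ a z, (St a).p (0, z) = (δ a).u z ∧ (St a).q (0, z) = (δ a).v z

/-- block Y: the Kummer presentation -/
def KUM_statement : Prop := ∀ (X : Type) [Cl4 X] (μ : Form X 4), Top0 μ → ∀ (M : Marking μ)
  (K : DK M.G) (w : Tri X), Hypersymplectic μ w → M.Rep w K.k →
  ∀ St : Fin 4 → Fin 4 → Std w,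
  (∀ i j i' j', (i, j) ≠ (i', j') → Disjoint (St i j).nb (St i' j').nb) →
  (∀ i j, IsCls μ (fun φ => ∫ z, pull2 φ (fun ζ => (St i j).p (0, ζ)) z)
    (lc M.c (cs ℝ (K.d i j)))) →
  ∀ C D : Fin 4 → Sph (Jw w), (∀ i, IsCls μ (C i).int (lc M.c (cs ℝ (K.C i)))) →
  (∀ j, IsCls μ (D j).int (lc M.c (cs ℝ (K.D j)))) → Nonempty (KP w)

/-- block T: the flat end -/
def FLATEND_statement : Prop := ∀ (X : Type) [Cl4 X] (μ : Form X 4), Volume μ → ∀ w : Tri X,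
  Hypersymplectic μ w → KP w → ∃ w', Chain μ w w' ∧ IntPair μ w'

/-- Q1 for the manifold `X` -/
def Q1For (X : Type) [Cl4 X] (μ : Form X 4) : Prop := ∀ w : Tri X, Hypersymplectic μ w →
  Normalized μ w → ∃ W, Deformation μ w W ∧ Hyperkahler μ (W 1)

/-- target 1 -/
def ThmK_statement : Prop := ∀ (X : Type) [Cl4 X] (μ : Form X 4), Top0 μ → BMinusGe μ 19 →
  ¬ BMinusGe μ 20 → Q1For X μ

/-- assembly of target 1 -/
def ASMK_statement : Prop := ROOT_statement → MARK_statement → PERIOD_statement → CH1_statement →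
  CH2_statement → EMB_statement → IRR_statement → POS_statement → STR_statement → KUM_statement →
  FLATEND_statement → FREE_statement → ThmK_statement

/-! ## Stage 2 -/

/-- block A -/
def BP_statement : Prop := ∀ (X : Type) [Cl4 X] (μ : Form X 4), Volume μ → ∀ w : Tri X,
  Hypersymplectic μ w → BPlusLe3 μ

/-- block NO -/
def NO0_statement : Prop := ∀ (X : Type) [Cl4 X] (μ : Form X 4), Top0 μ → ∀ w : Tri X,
  Hypersymplectic μ w → BMinusGe μ 19 ∧ ¬ BMinusGe μ 20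

/-- block B4 -/
def B4_statement : Prop := ∀ (X : Type) [Cl4 X] (μ : Form X 4), Volume μ → BPlusLe3 μ →
  ¬ B1Zero X → Q1For X μ

/-- the full theorem -/
def Q1_statement : Prop := ∀ (X : Type) [Cl4 X] (μ : Form X 4), Volume μ → Q1For X μ

end Vale.Agent.P247X
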