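import Vale.Agent.P247X.Spec
import Vale.Agent.P247.SCY.FX2

/-!
# P247, general four-manifolds: basic lemmas on forms, classes and markings
-/

set_option linter.all false

open scoped Manifold ContDiff Topology
open Set MeasureTheory Filter Metric

noncomputable section

namespace Vale.Agent.P247X

open Vale.Agent.P247.SCY
open Vale.Agent.P247.SCY.HS
open Vale.Agent.P290.H726 (bil)
open Vale.Agent.P290Z.Lat (IsK3L cs)

section forms

variable {X : Type} [TopologicalSpace X] [ChartedSpace HS.E4 X] {k : ℕ}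

theorem cont_of_smooth {α : Form X k} (h : Smooth α) : Cont α := fun c hc => (h c hc).continuousOn

theorem SC.cont {α : Form X k} (h : SC α) : Cont α := cont_of_smooth h.1

theorem Cont.add {α β : Form X k} (h : Cont α) (h' : Cont β) : Cont fun x => α x + β x :=
  fun c hc => by rw [loc_add']; exact (h c hc).add (h' c hc)

theorem Cont.smul {α : Form X k} (h : Cont α) (r : ℝ) : Cont fun x => r • α x :=
  fun c hc => by rw [loc_smul']; exact (h c hc).const_smul r

theorem loc_zero (c : OpenPartialHomeomorph X HS.E4) :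
    loc c (fun _ => 0 : Form X k) = fun _ => 0 := by
  funext y; ext v; rfl

theorem smooth_zero : Smooth (fun _ => 0 : Form X k) := fun c _ => by
  rw [loc_zero]; exact contDiffOn_const

theorem sc_zero : SC (fun _ => 0 : Form X k) := ⟨smooth_zero, fun c _ y _ => by
  rw [loc_zero]
  have h := extDeriv_fun_smul (0 : ℝ) (fun _ : HS.E4 => (0 : HS.E4 [⋀^Fin k]→L[ℝ] ℝ)) (x := y)
  simp only [smul_zero, zero_smul] at h
  exact h⟩

theorem SC.add {α β : Form X k} (h : SC α) (h' : SC β) : SC fun x => α x + β x :=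
  ⟨smooth_add h.1 h'.1, closed_add h.1 h'.1 h.2 h'.2⟩

theorem SC.smul {α : Form X k} (h : SC α) (r : ℝ) : SC fun x => r • α x :=
  ⟨smooth_smul h.1 r, closed_smul h.2 r⟩

theorem sub_eq (α β : Form X k) : (fun x => α x - β x) = fun x => α x + (-1 : ℝ) • β x := by
  funext x
  rw [neg_one_smul ℝ (β x), sub_eq_add_neg]

theorem SC.sub {α β : Form X k} (h : SC α) (h' : SC β) : SC fun x => α x - β x := by
  rw [sub_eq]; exact h.add (h'.smul _)

theorem smooth_sub {α β : Form X k} (h : Smooth α) (h' : Smooth β) :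
    Smooth fun x => α x - β x := by
  rw [sub_eq]; exact smooth_add h (smooth_smul h' _)

theorem Cont.sub {α β : Form X k} (h : Cont α) (h' : Cont β) : Cont fun x => α x - β x := by
  rw [sub_eq]; exact h.add (h'.smul _)

theorem sc_sum {ι : Type} (s : Finset ι) {α : ι → Form X k} (h : ∀ i, SC (α i)) :
    SC fun x => ∑ i ∈ s, α i x := by
  classical
  induction s using Finset.induction_on with
  | empty => simpa using sc_zero
  | insert a s ha ih => simpa only [Finset.sum_insert ha] using (h a).add ih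

theorem sc_lc {n : ℕ} {c : Fin n → Form X 2} (h : ∀ i, SC (c i)) (v : Fin n → ℝ) : SC (lc c v) :=
  sc_sum _ fun i => (h i).smul (v i)

theorem Coh.refl (α : Form X 2) : Coh α α := by
  simpa only [Coh, sub_self] using (exact_zero (X := X))

theorem Coh.symm {α β : Form X 2} (h : Coh α β) : Coh β α := by
  have e : (fun x => β x - α x) = fun x => (-1 : ℝ) • (α x - β x) := by
    funext x
    rw [neg_one_smul ℝ (α x - β x), neg_sub]
  unfold Coh
  rw [e]
  exact exact_smul h (-1)

theorem Coh.trans {α β γ : Form X 2} (h : Coh α β) (h' : Coh β γ) : Coh α γ := by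
  simpa only [Coh, sub_add_sub_cancel] using exact_add h h'

theorem hyp_sc {μ : Form X 4} {w : Tri X} (hw : Hypersymplectic μ w) (i : Fin 3) : SC (w i) :=
  ⟨hw.smooth i, hw.closed i⟩

theorem Chain.hyp {μ : Form X 4} {w w' : Tri X} (h : Chain μ w w') (hw : Hypersymplectic μ w) :
    Hypersymplectic μ w' := by
  induction h with
  | refl => exact hw
  | tail _ h _ => exact h.choose_spec.1.hv

end forms

section pair

variable {X : Type} [Cl4 X] {μ : Form X 4} {w : Tri X}

theorem defAt (hw : Hypersymplectic μ w) : DefAt (w 2) (w 0) (w 1) :=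
  defAt_of_triPos (tri_of_posDef hw.posDef).rot

theorem vol_fin (hμ : Volume μ) (hw : Hypersymplectic μ w) : vol μ univ ≠ ⊤ := by
  have hJ := Jf_almostComplex (defAt hw) (hw.smooth 2) (hw.smooth 0) (hw.smooth 1)
  have hT := Jf_tames (defAt hw)
  obtain ⟨A⟩ := P204.Mfd.exists_finAtlas hJ
  haveI := muA_finite A hJ (hw.smooth 2) (hw.closed 2) hT
  obtain ⟨C, hC⟩ := isCompact_univ.exists_bound_of_continuousOn
    (continuous_hx A hJ (hw.smooth 2) hT hμ.smooth).continuousOn
  rw [vol_muA A hJ (hw.smooth 2) (hw.closed 2) hT hμ.smooth, withDensity_apply _ .univ,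
    Measure.restrict_univ]
  refine ne_top_of_le_ne_top ?_ (lintegral_mono fun x => ENNReal.ofReal_le_ofReal (hC x trivial))
  rw [lintegral_const]
  exact ENNReal.mul_ne_top ENNReal.ofReal_ne_top (measure_ne_top _ _)

theorem pair_smul_left (r : ℝ) (α β : Form X 2) : pair μ (fun x => r • α x) β = r * pair μ α β := by
  unfold pair
  rw [← integral_const_mul]
  congr 1
  funext x
  rw [quot_cx, quot_cx, cx_smul, P204.T4.Q_smul_left]
  ring

theorem pair_zero_left (β : Form X 2) : pair μ (fun _ => 0) β = 0 := by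
  simpa using pair_smul_left (μ := μ) 0 (fun _ => 0) β

variable (hμ : Volume μ) (hw : Hypersymplectic μ w)
include hμ hw

theorem pair_add {α β γ : Form X 2} (hα : Smooth α) (hβ : Smooth β) (hγ : Smooth γ) :
    pair μ (fun x => α x + β x) γ = pair μ α γ + pair μ β γ :=
  pair_add_left hμ (vol_fin hμ hw) hα hβ hγ

theorem pair_sum {ι : Type} (s : Finset ι) {α : ι → Form X 2} (h : ∀ i, SC (α i)) {γ : Form X 2}
    (hγ : Smooth γ) : pair μ (fun x => ∑ i ∈ s, α i x) γ = ∑ i ∈ s, pair μ (α i) γ := by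
  classical
  induction s using Finset.induction_on with
  | empty => simpa using pair_zero_left γ
  | insert a s ha ih =>
    simp only [Finset.sum_insert ha]
    rw [pair_add hμ hw (h a).1 (sc_sum s h).1 hγ, ih]

theorem pair_lc_left {n : ℕ} {c : Fin n → Form X 2} (h : ∀ i, SC (c i)) (v : Fin n → ℝ)
    {γ : Form X 2} (hγ : Smooth γ) : pair μ (lc c v) γ = ∑ i, v i * pair μ (c i) γ := by
  rw [← Finset.sum_congr rfl fun i _ => pair_smul_left (v i) (c i) γ]
  exact pair_sum hμ hw _ (fun i => (h i).smul (v i)) hγ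

theorem Coh.pair {α β γ : Form X 2} (h : Coh α β) (hα : Smooth α) (hβ : Smooth β) (hγ : SC γ) :
    pair μ α γ = pair μ β γ := by
  have := pair_step hμ (vol_fin hμ hw) hw hβ (smooth_sub hα hβ) h hγ.1 hγ.2
  simpa only [add_sub_cancel] using this

theorem Marking.pair_lc (M : Marking μ) (v v' : Fin 22 → ℝ) :
    pair μ (lc M.c v) (lc M.c v') = bil M.G v v' := by
  rw [pair_lc_left hμ hw M.sc v (sc_lc M.sc v').1, bil]
  refine Finset.sum_congr rfl fun i _ => ?_
  rw [P247.SCY.pair_comm, pair_lc_left hμ hw M.sc v' (M.sc i).1, Finset.mul_sum]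
  refine Finset.sum_congr rfl fun j _ => ?_
  rw [P247.SCY.pair_comm, M.gram]
  ring

theorem Marking.pair_rep (M : Marking μ) {a : Fin 3 → Fin 22 → ℝ} (h : M.Rep w a)
    (v : Fin 22 → ℝ) (i : Fin 3) : pair μ (lc M.c v) (w i) = bil M.G v (a i) := by
  rw [P247.SCY.pair_comm, (h i).pair hμ hw (hw.smooth i) (sc_lc M.sc _).1 (sc_lc M.sc _), P247.SCY.pair_comm,
    M.pair_lc hμ hw]

end pair

theorem bil_cs (G : Matrix (Fin 22) (Fin 22) ℤ) (u v : Fin 22 → ℤ) :
    bil G (cs ℝ u) (cs ℝ v) = ((bil G u v : ℤ) : ℝ) := by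
  simp [bil, cs]

end Vale.Agent.P247X
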