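import Vale.Agent.P247X.Stm
import Vale.Agent.P247X.Spec
import Vale.Agent.P247.SCY.StmtGB

/-!
# P247: from the bundled statements to the statements which are handed in
-/

open scoped Manifold ContDiff Topology
open MeasureTheory Set

namespace Vale.Agent.P247X

open Vale.Agent.P247.SCY

/-- the bundled class from the unbundled instances -/
@[reducible] def Cl4.of (X : Type) [TopologicalSpace X] [ChartedSpace HS.E4 X]
    [IsManifold (𝓡 4) ∞ X] [CompactSpace X] [T2Space X] [ConnectedSpace X] [MeasurableSpace X]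
    [BorelSpace X] : Cl4 X where
  mfd := inferInstance
  cpt := inferInstance
  t2 := inferInstance
  conn := inferInstance
  borel := inferInstance

section

variable {X : Type} [TopologicalSpace X] [ChartedSpace HS.E4 X]
  [IsManifold (𝓡 4) ∞ X] [CompactSpace X] [T2Space X] [ConnectedSpace X] [MeasurableSpace X]
  [BorelSpace X] {μ : GS.Form HS.E4 X 4} {w : Fin 3 → GS.Form HS.E4 X 2}

theorem wrap_end (h : @Q1For X (Cl4.of X) μ) (hw : GS.Hypersymplectic GS.bas μ w)
    (hn : GS.Normalized GS.bas μ w) :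
    ∃ W : ℝ → Fin 3 → GS.Form HS.E4 X 2, GS.Deformation GS.bas μ w W ∧
      St.Hyperkahler GS.bas μ (W 1) := by
  obtain ⟨W, h1, h2, μ', h3, h4, h5⟩ := h w (GS.hypersymplectic_iff.1 hw) (GS.normalized_iff.1 hn)
  exact ⟨W, GS.deformation_of h1, fun i => ⟨h2.smooth i, h2.closed i⟩, μ', GS.volume_iff.2 h3,
    h4, h5⟩

theorem wrapK (h : ThmK_statement) (hμ : GS.Volume μ) (h1 : St.B1Zero HS.E4 X)
    (hp : GS.BPlusLe3 GS.bas μ) (hm : St.BMinusGe GS.bas μ 19) (hm' : ¬ St.BMinusGe GS.bas μ 20)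
    (hw : GS.Hypersymplectic GS.bas μ w) (hn : GS.Normalized GS.bas μ w) :
    ∃ W : ℝ → Fin 3 → GS.Form HS.E4 X 2, GS.Deformation GS.bas μ w W ∧
      St.Hyperkahler GS.bas μ (W 1) :=
  wrap_end (@h X (Cl4.of X) μ (@Top0.mk X (Cl4.of X) μ (GS.volume_iff.1 hμ) h1 hp) hm hm') hw hn

theorem wrapQ (h : Q1_statement) (hμ : GS.Volume μ)
    (hw : GS.Hypersymplectic GS.bas μ w) (hn : GS.Normalized GS.bas μ w) :
    ∃ W : ℝ → Fin 3 → GS.Form HS.E4 X 2, GS.Deformation GS.bas μ w W ∧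
      St.Hyperkahler GS.bas μ (W 1) :=
  wrap_end (@h X (Cl4.of X) μ (GS.volume_iff.1 hμ)) hw hn

end

/-- the case `b₁ = 0`, `b⁺ ≤ 3` -/
theorem q1_top0 (hK : ThmK_statement) (hN : NO0_statement) (X : Type) [Cl4 X] (μ : HS.Form X 4)
    (h0 : Top0 μ) : Q1For X μ := fun w hw hn =>
  hK X μ h0 (hN X μ h0 w hw).1 (hN X μ h0 w hw).2 w hw hn

/-- the full theorem from the four top-level statements -/
theorem asmQ1 (hK : ThmK_statement) (hB : BP_statement) (hN : NO0_statement)
    (h4 : B4_statement) : Q1_statement := fun X _ μ hμ w hw hn => by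
  by_cases h : B1Zero X
  · exact q1_top0 hK hN X μ ⟨hμ, h, hB X μ hμ w hw⟩ w hw hn
  · exact h4 X μ hμ (hB X μ hμ w hw) h w hw hn

end Vale.Agent.P247X
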