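import Vale.Agent.P247X.Asm
import Vale.Agent.P247X.Wrap
import Vale.Agent.P247C.All
import Vale.Agent.P247C.Dec
import Vale.Agent.P247C.Irr
import Vale.Agent.P247C.Emb
import Vale.Agent.P247E.Root
import Vale.Agent.P247N.Siu
import Vale.Agent.P247N.Sq
import Vale.Agent.P247N.Int3
import Vale.Agent.P247I.Even
import Vale.Agent.P247I.Ind
import Vale.Agent.P247S.Str
import Vale.Agent.P247Y.Near
import Vale.Agent.P247F.HK6
import Vale.Agent.P247F.NM
import Vale.Agent.P247F.CH
import Vale.Agent.P247K.Period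
import Vale.Agent.P247L.LX
import Vale.Agent.P247M.Mark
import Vale.Agent.P247T.Fin
import Vale.Agent.P247Y.Asmy2
import Vale.Agent.P247Y.Kpfin
import Vale.Agent.P247Y.Foli
import Vale.Agent.P247Y.Meet
import Vale.Agent.P247Y.Openg
import Vale.Agent.P247Y.Limk
import Vale.Agent.P247Y.Ratx
import Vale.Agent.P247Y.Prod
import Vale.Agent.P247Y.Prt
import Vale.Agent.P247Y.Yconn
import Vale.Agent.P247Y.Dcx
import Vale.Agent.P247Y.Covx
import Vale.Agent.P247Y.Divx
import Vale.Agent.P247Y.Cv
import Vale.Agent.P247Y.Stdb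
import Vale.Agent.P247Y.Folx
import Vale.Agent.P247Y.Fam
import Vale.Agent.P247Y.Transpl
import Vale.Agent.P247Y.Tube
import Vale.Agent.P247Y.Thom
import Vale.Agent.P247Y.Folb
import Vale.Agent.P247Y.Cob

/-!
# P247: the blocks plugged together
-/

namespace Vale.Agent.P247X

open Vale.Agent

theorem siua : SIUA_statement := P247N.siua P247N.int P247N.sq

theorem siub : SIUB_statement := P247N.siub P247N.int P247C.irr P247C.emb

theorem nm : NM_statement :=
  P247F.nm siua P247L.LSXX P247C.dec P247C.irr P247C.emb P247C.adj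

theorem bb_of (flat : FLAT_statement) : P247Y.BB :=
  ⟨flat, P247L.LSXX, siub, P247C.dec, P247C.irr, P247C.emb, P247C.pos, P247C.adj⟩

theorem fol : P247Y.FOL_statement := P247Y.FOLX P247Y.COB P247Y.tube P247Y.TRANSPL P247Y.FAM

theorem pre_of (flat : FLAT_statement) : P247Y.Pre :=
  ⟨bb_of flat, fol, P247Y.FOLB, P247Y.TANG, P247Y.LIFTX P247Y.COB, P247Y.stdb, P247Y.cls,
    P247Y.geom⟩

theorem thomY : P247Y.THOM_statement :=
  P247Y.THOMX P247C.lbc P247C.small P247C.plx P247C.tra P247C.emb

theorem covY : P247Y.COV_statement :=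
  P247Y.covx (P247Y.divx thomY P247Y.COB P247Y.stdb) P247Y.TOCOV P247Y.stdb

theorem root : ROOT_statement := P247E.root_of_ind P247I.ind

theorem flat : FLAT_statement := P247E.flat_of_ind P247I.ind

theorem kum : KUM_statement :=
  P247Y.asmy2 (pre_of flat) covY P247Y.dcx P247Y.yconn P247Y.PRT P247Y.near P247Y.openg
    P247Y.closed P247Y.foli P247Y.meet P247Y.PROD P247Y.kpfin

theorem ch1 : CH1_statement := P247F.ch1 nm P247C.irr P247C.emb

theorem ch2 : CH2_statement := P247F.ch2 root nm P247C.irr P247C.emb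

theorem free : FREE_statement := P247F.free root nm P247C.irr P247C.emb

/-- Theorem K -/
theorem thmK : ThmK_statement :=
  asmk root (P247M.mark P247I.even) P247K.period ch1 ch2 P247C.emb P247C.irr P247C.pos P247S.str
    kum P247T.flatend free

end Vale.Agent.P247X
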