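import Vale.Agent.P247.SCY.StmtG

/-!
# P247: Betti numbers and hyperkaehler triples on closed four-manifolds, definitions
-/

open scoped Manifold ContDiff Topology
open MeasureTheory Set

namespace Vale.Agent.P247X.St

open Vale.Agent.P247.SCY.GS

variable {E : Type*} [NormedAddCommGroup E] [NormedSpace ℝ E]

/-- `b₁(X) = 0`: every smooth closed one-form is the differential of a smooth function. -/
def B1Zero (E : Type*) [NormedAddCommGroup E] [NormedSpace ℝ E] (X : Type*) [TopologicalSpace X]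
    [ChartedSpace E X] : Prop :=
  ∀ θ : Form E X 1, Smooth θ ∧ Closed θ → ∃ f : X → ℝ, ContMDiff 𝓘(ℝ, E) 𝓘(ℝ, ℝ) ∞ f ∧
    ∀ x (v : TangentSpace 𝓘(ℝ, E) x), θ x ![v] = mfderiv 𝓘(ℝ, E) 𝓘(ℝ, ℝ) f x v

variable {X : Type*} [TopologicalSpace X] [ChartedSpace E X]

/-- `b⁻(X) ≥ n`: the intersection form has an `n`-dimensional negative definite subspace. -/
def BMinusGe [MeasureSpace E] [MeasurableSpace X] (b : Fin 4 → E) (μ : Form E X 4) (n : ℕ) :
    Prop :=
  ∃ c : Fin n → Form E X 2, (∀ i, Smooth (c i) ∧ Closed (c i)) ∧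
    (Matrix.of fun i j => - pair b μ (c i) (c j)).PosDef

/-- Hyperkaehler triples: closed smooth two-forms with `w_i ∧ w_j = 2 δ_ij μ'` for a volume form
`μ'` which is positive for the orientation given by `μ`. -/
def Hyperkahler (b : Fin 4 → E) (μ : Form E X 4) (w : Fin 3 → Form E X 2) : Prop :=
  (∀ i, Smooth (w i) ∧ Closed (w i)) ∧ ∃ μ' : Form E X 4, Volume μ' ∧
    (∀ x, 0 < μ' x (tbas b x) / μ x (tbas b x)) ∧ ∀ x, Qm b μ' w x = 1

end Vale.Agent.P247X.St
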